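import Vale.Agent.P052.H515.Rows

/-! Kernel checks of the clique number, part 2. -/

set_option linter.unusedTactic false

namespace Vale.Agent.P052.H515

open Vale.Agent.P052

set_option maxRecDepth 100000 in
theorem k_cl24 : chunk 5 1 (rows3.drop 24) = true := by
  (clear * -; decide +kernel)

set_option maxRecDepth 100000 in
theorem k_cl25 : chunk 5 1 (rows3.drop 25) = true := by
  (clear * -; decide +kernel)

set_option maxRecDepth 100000 in
theorem k_cl26 : chunk 5 1 (rows3.drop 26) = true := by
  (clear * -; decide +kernel)

set_option maxRecDepth 100000 in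
theorem k_cl27 : chunk 5 1 (rows3.drop 27) = true := by
  (clear * -; decide +kernel)

set_option maxRecDepth 100000 in
theorem k_cl28 : chunk 5 1 (rows3.drop 28) = true := by
  (clear * -; decide +kernel)

set_option maxRecDepth 100000 in
theorem k_cl29 : chunk 5 1 (rows3.drop 29) = true := by
  (clear * -; decide +kernel)

set_option maxRecDepth 100000 in
theorem k_cl30 : chunk 5 1 (rows3.drop 30) = true := by
  (clear * -; decide +kernel)

set_option maxRecDepth 100000 in
theorem k_cl31 : chunk 5 1 (rows3.drop 31) = true := by
  (clear * -; decide +kernel)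

set_option maxRecDepth 100000 in
theorem k_cl32 : chunk 5 1 (rows3.drop 32) = true := by
  (clear * -; decide +kernel)

set_option maxRecDepth 100000 in
theorem k_cl33 : chunk 5 1 (rows3.drop 33) = true := by
  (clear * -; decide +kernel)

set_option maxRecDepth 100000 in
theorem k_cl34 : chunk 5 1 (rows3.drop 34) = true := by
  (clear * -; decide +kernel)

set_option maxRecDepth 100000 in
theorem k_cl35 : chunk 5 1 (rows3.drop 35) = true := by
  (clear * -; decide +kernel)

set_option maxRecDepth 100000 in
theorem k_cl36 : chunk 5 1 (rows3.drop 36) = true := by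
  (clear * -; decide +kernel)

set_option maxRecDepth 100000 in
theorem k_cl37 : chunk 5 1 (rows3.drop 37) = true := by
  (clear * -; decide +kernel)

set_option maxRecDepth 100000 in
theorem k_cl38 : chunk 5 1 (rows3.drop 38) = true := by
  (clear * -; decide +kernel)

set_option maxRecDepth 100000 in
theorem k_cl39 : chunk 5 1 (rows3.drop 39) = true := by
  (clear * -; decide +kernel)

set_option maxRecDepth 100000 in
theorem k_cl40 : chunk 5 1 (rows3.drop 40) = true := by
  (clear * -; decide +kernel)

set_option maxRecDepth 100000 in
theorem k_cl41 : chunk 5 1 (rows3.drop 41) = true := by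
  (clear * -; decide +kernel)

set_option maxRecDepth 100000 in
theorem k_cl42 : chunk 5 1 (rows3.drop 42) = true := by
  (clear * -; decide +kernel)

set_option maxRecDepth 100000 in
theorem k_cl43 : chunk 5 1 (rows3.drop 43) = true := by
  (clear * -; decide +kernel)

set_option maxRecDepth 100000 in
theorem k_cl44 : chunk 5 1 (rows3.drop 44) = true := by
  (clear * -; decide +kernel)

set_option maxRecDepth 100000 in
theorem k_cl45 : chunk 5 1 (rows3.drop 45) = true := by
  (clear * -; decide +kernel)

set_option maxRecDepth 100000 in
theorem k_cl46 : chunk 5 1 (rows3.drop 46) = true := by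
  (clear * -; decide +kernel)

set_option maxRecDepth 100000 in
theorem k_cl47 : chunk 5 1 (rows3.drop 47) = true := by
  (clear * -; decide +kernel)

end Vale.Agent.P052.H515
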