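import Vale.Agent.P052.H515.Rows

/-! Kernel checks of the clique number, part 3. -/

set_option linter.unusedTactic false

namespace Vale.Agent.P052.H515

open Vale.Agent.P052

set_option maxRecDepth 100000 in
theorem k_cl48 : chunk 5 1 (rows3.drop 48) = true := by
  (clear * -; decide +kernel)

set_option maxRecDepth 100000 in
theorem k_cl49 : chunk 5 1 (rows3.drop 49) = true := by
  (clear * -; decide +kernel)

set_option maxRecDepth 100000 in
theorem k_cl50 : chunk 5 1 (rows3.drop 50) = true := by
  (clear * -; decide +kernel)

set_option maxRecDepth 100000 in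
theorem k_cl51 : chunk 5 1 (rows3.drop 51) = true := by
  (clear * -; decide +kernel)

set_option maxRecDepth 100000 in
theorem k_cl52 : chunk 5 1 (rows3.drop 52) = true := by
  (clear * -; decide +kernel)

set_option maxRecDepth 100000 in
theorem k_cl53 : chunk 5 1 (rows3.drop 53) = true := by
  (clear * -; decide +kernel)

set_option maxRecDepth 100000 in
theorem k_cl54 : chunk 5 1 (rows3.drop 54) = true := by
  (clear * -; decide +kernel)

set_option maxRecDepth 100000 in
theorem k_cl55 : chunk 5 1 (rows3.drop 55) = true := by
  (clear * -; decide +kernel)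

set_option maxRecDepth 100000 in
theorem k_cl56 : chunk 5 1 (rows3.drop 56) = true := by
  (clear * -; decide +kernel)

set_option maxRecDepth 100000 in
theorem k_cl57 : chunk 5 1 (rows3.drop 57) = true := by
  (clear * -; decide +kernel)

set_option maxRecDepth 100000 in
theorem k_cl58 : chunk 5 1 (rows3.drop 58) = true := by
  (clear * -; decide +kernel)

set_option maxRecDepth 100000 in
theorem k_cl59 : chunk 5 1 (rows3.drop 59) = true := by
  (clear * -; decide +kernel)

set_option maxRecDepth 100000 in
theorem k_cl60 : chunk 5 1 (rows3.drop 60) = true := by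
  (clear * -; decide +kernel)

set_option maxRecDepth 100000 in
theorem k_cl61 : chunk 5 1 (rows3.drop 61) = true := by
  (clear * -; decide +kernel)

set_option maxRecDepth 100000 in
theorem k_cl62 : chunk 5 1 (rows3.drop 62) = true := by
  (clear * -; decide +kernel)

set_option maxRecDepth 100000 in
theorem k_cl63 : chunk 5 1 (rows3.drop 63) = true := by
  (clear * -; decide +kernel)

set_option maxRecDepth 100000 in
theorem k_cl64 : chunk 5 1 (rows3.drop 64) = true := by
  (clear * -; decide +kernel)

set_option maxRecDepth 100000 in
theorem k_cl65 : chunk 5 1 (rows3.drop 65) = true := by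
  (clear * -; decide +kernel)

set_option maxRecDepth 100000 in
theorem k_cl66 : chunk 5 1 (rows3.drop 66) = true := by
  (clear * -; decide +kernel)

set_option maxRecDepth 100000 in
theorem k_cl67 : chunk 5 1 (rows3.drop 67) = true := by
  (clear * -; decide +kernel)

set_option maxRecDepth 100000 in
theorem k_cl68 : chunk 5 1 (rows3.drop 68) = true := by
  (clear * -; decide +kernel)

set_option maxRecDepth 100000 in
theorem k_cl69 : chunk 5 1 (rows3.drop 69) = true := by
  (clear * -; decide +kernel)

set_option maxRecDepth 100000 in
theorem k_cl70 : chunk 5 1 (rows3.drop 70) = true := by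
  (clear * -; decide +kernel)

set_option maxRecDepth 100000 in
theorem k_cl71 : chunk 5 1 (rows3.drop 71) = true := by
  (clear * -; decide +kernel)

end Vale.Agent.P052.H515
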