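import Vale.Agent.P052.H515.Rows

/-! Kernel check of the inner products of the 416 points. -/

namespace Vale.Agent.P052.H515

open Vale.Agent.P052

/-- the number of the block of a vertex: `0` for the first 320 vertices, `1`, `2`, `3` for the
vertices of the three blocks of 32 vertices. -/
def blk (i : ℕ) : ℕ := (Nat.ble 320 i).rec (motive := fun _ => ℕ) 0 (Nat.sub (Nat.div i 32) 9)

/-- the admissible digits of the pair `(i, j)`. -/
noncomputable def okD (i j x : ℕ) : Bool :=
  (Nat.beq i j).rec (motive := fun _ => Bool)
    ((Nat.beq (Nat.mul (blk i) (blk j)) 0).rec (motive := fun _ => Bool)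
      ((Nat.beq (blk i) (blk j)).rec (motive := fun _ => Bool)
        ((Nat.beq x 3).rec (motive := fun _ => Bool) (Nat.beq x 7) true)
        ((Nat.beq x 0).rec (motive := fun _ => Bool) (Nat.beq x 4) true))
      ((Nat.beq x 2).rec (motive := fun _ => Bool) (Nat.beq x 6) true))
    (Nat.beq x (Nat.sub 18 (Nat.mul 2 (Nat.div i 320))))

set_option linter.unusedTactic false in
set_option maxRecDepth 100000 in
theorem k_pts3 : allL (fun v => allL (fun w => okD v.1 w.1 (dig v.2 w.1)) rows) rows = true := by
  (clear * -; decide +kernel)

end Vale.Agent.P052.H515
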