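import Vale.Agent.P052.H515.Rows

/-! Kernel checks of the clique number, part 4. -/

set_option linter.unusedTactic false

namespace Vale.Agent.P052.H515

open Vale.Agent.P052

set_option maxRecDepth 100000 in
theorem k_cl72 : chunk 5 1 (rows3.drop 72) = true := by
  (clear * -; decide +kernel)

set_option maxRecDepth 100000 in
theorem k_cl73 : chunk 5 1 (rows3.drop 73) = true := by
  (clear * -; decide +kernel)

set_option maxRecDepth 100000 in
theorem k_cl74 : chunk 5 1 (rows3.drop 74) = true := by
  (clear * -; decide +kernel)

set_option maxRecDepth 100000 in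
theorem k_cl75 : chunk 5 1 (rows3.drop 75) = true := by
  (clear * -; decide +kernel)

set_option maxRecDepth 100000 in
theorem k_cl76 : chunk 5 1 (rows3.drop 76) = true := by
  (clear * -; decide +kernel)

set_option maxRecDepth 100000 in
theorem k_cl77 : chunk 5 1 (rows3.drop 77) = true := by
  (clear * -; decide +kernel)

set_option maxRecDepth 100000 in
theorem k_cl78 : chunk 5 1 (rows3.drop 78) = true := by
  (clear * -; decide +kernel)

set_option maxRecDepth 100000 in
theorem k_cl79 : chunk 5 1 (rows3.drop 79) = true := by
  (clear * -; decide +kernel)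

set_option maxRecDepth 100000 in
theorem k_cl80 : chunk 5 1 (rows3.drop 80) = true := by
  (clear * -; decide +kernel)

set_option maxRecDepth 100000 in
theorem k_cl81 : chunk 5 1 (rows3.drop 81) = true := by
  (clear * -; decide +kernel)

set_option maxRecDepth 100000 in
theorem k_cl82 : chunk 5 1 (rows3.drop 82) = true := by
  (clear * -; decide +kernel)

set_option maxRecDepth 100000 in
theorem k_cl83 : chunk 5 1 (rows3.drop 83) = true := by
  (clear * -; decide +kernel)

set_option maxRecDepth 100000 in
theorem k_cl84 : chunk 5 1 (rows3.drop 84) = true := by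
  (clear * -; decide +kernel)

set_option maxRecDepth 100000 in
theorem k_cl85 : chunk 5 1 (rows3.drop 85) = true := by
  (clear * -; decide +kernel)

set_option maxRecDepth 100000 in
theorem k_cl86 : chunk 5 1 (rows3.drop 86) = true := by
  (clear * -; decide +kernel)

set_option maxRecDepth 100000 in
theorem k_cl87 : chunk 5 1 (rows3.drop 87) = true := by
  (clear * -; decide +kernel)

set_option maxRecDepth 100000 in
theorem k_cl88 : chunk 5 1 (rows3.drop 88) = true := by
  (clear * -; decide +kernel)

set_option maxRecDepth 100000 in
theorem k_cl89 : chunk 5 1 (rows3.drop 89) = true := by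
  (clear * -; decide +kernel)

set_option maxRecDepth 100000 in
theorem k_cl90 : chunk 5 1 (rows3.drop 90) = true := by
  (clear * -; decide +kernel)

set_option maxRecDepth 100000 in
theorem k_cl91 : chunk 5 1 (rows3.drop 91) = true := by
  (clear * -; decide +kernel)

set_option maxRecDepth 100000 in
theorem k_cl92 : chunk 5 1 (rows3.drop 92) = true := by
  (clear * -; decide +kernel)

set_option maxRecDepth 100000 in
theorem k_cl93 : chunk 5 1 (rows3.drop 93) = true := by
  (clear * -; decide +kernel)

set_option maxRecDepth 100000 in
theorem k_cl94 : chunk 5 1 (rows3.drop 94) = true := by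
  (clear * -; decide +kernel)

set_option maxRecDepth 100000 in
theorem k_cl95 : chunk 5 1 (rows3.drop 95) = true := by
  (clear * -; decide +kernel)

end Vale.Agent.P052.H515
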