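import Vale.Agent.P052.H515.K1
import Vale.Agent.P052.H515.K2
import Vale.Agent.P052.H515.K3
import Vale.Agent.P052.H515.K4
import Vale.Agent.P052.H515.K5
import Vale.Agent.P052.H515.Join

/-!
The 416 points in dimension 65 and the 352 points in dimension 64.
-/

namespace Vale.Agent.P052.H515

open Vale.Agent.P052 Metric Module

attribute [local irreducible] rows Q

theorem step (k : ℕ) (h : chunk 5 1 (rows3.drop k) = true)
    (h' : noClique 6 (rows3.drop (k + 1)) = true) : noClique 6 (rows3.drop k) = true := by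
  apply chunk_sound 5 1 _ h
  rw [List.drop_drop]
  exact h'

theorem noClique6_rows3 : noClique 6 rows3 = true := by
  have h3 : noClique 6 (rows3.drop 96) = true := by
    have h : rows3.drop 96 = rows.take 320 := by
      unfold rows3
      rw [List.drop_append_of_le_length (by rw [List.length_drop, rows_length])]
      rw [List.drop_eq_nil_of_le (by rw [List.length_drop, rows_length])]
      rfl
    rw [h]
    exact noClique6_S
  have g96 := h3
  have g95 := step 95 k_cl95 g96
  have g94 := step 94 k_cl94 g95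
  have g93 := step 93 k_cl93 g94
  have g92 := step 92 k_cl92 g93
  have g91 := step 91 k_cl91 g92
  have g90 := step 90 k_cl90 g91
  have g89 := step 89 k_cl89 g90
  have g88 := step 88 k_cl88 g89
  have g87 := step 87 k_cl87 g88
  have g86 := step 86 k_cl86 g87
  have g85 := step 85 k_cl85 g86
  have g84 := step 84 k_cl84 g85
  have g83 := step 83 k_cl83 g84
  have g82 := step 82 k_cl82 g83
  have g81 := step 81 k_cl81 g82
  have g80 := step 80 k_cl80 g81
  have g79 := step 79 k_cl79 g80
  have g78 := step 78 k_cl78 g79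
  have g77 := step 77 k_cl77 g78
  have g76 := step 76 k_cl76 g77
  have g75 := step 75 k_cl75 g76
  have g74 := step 74 k_cl74 g75
  have g73 := step 73 k_cl73 g74
  have g72 := step 72 k_cl72 g73
  have g71 := step 71 k_cl71 g72
  have g70 := step 70 k_cl70 g71
  have g69 := step 69 k_cl69 g70
  have g68 := step 68 k_cl68 g69
  have g67 := step 67 k_cl67 g68
  have g66 := step 66 k_cl66 g67
  have g65 := step 65 k_cl65 g66
  have g64 := step 64 k_cl64 g65
  have g63 := step 63 k_cl63 g64
  have g62 := step 62 k_cl62 g63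
  have g61 := step 61 k_cl61 g62
  have g60 := step 60 k_cl60 g61
  have g59 := step 59 k_cl59 g60
  have g58 := step 58 k_cl58 g59
  have g57 := step 57 k_cl57 g58
  have g56 := step 56 k_cl56 g57
  have g55 := step 55 k_cl55 g56
  have g54 := step 54 k_cl54 g55
  have g53 := step 53 k_cl53 g54
  have g52 := step 52 k_cl52 g53
  have g51 := step 51 k_cl51 g52
  have g50 := step 50 k_cl50 g51
  have g49 := step 49 k_cl49 g50
  have g48 := step 48 k_cl48 g49
  have g47 := step 47 k_cl47 g48
  have g46 := step 46 k_cl46 g47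
  have g45 := step 45 k_cl45 g46
  have g44 := step 44 k_cl44 g45
  have g43 := step 43 k_cl43 g44
  have g42 := step 42 k_cl42 g43
  have g41 := step 41 k_cl41 g42
  have g40 := step 40 k_cl40 g41
  have g39 := step 39 k_cl39 g40
  have g38 := step 38 k_cl38 g39
  have g37 := step 37 k_cl37 g38
  have g36 := step 36 k_cl36 g37
  have g35 := step 35 k_cl35 g36
  have g34 := step 34 k_cl34 g35
  have g33 := step 33 k_cl33 g34
  have g32 := step 32 k_cl32 g33
  have g31 := step 31 k_cl31 g32
  have g30 := step 30 k_cl30 g31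
  have g29 := step 29 k_cl29 g30
  have g28 := step 28 k_cl28 g29
  have g27 := step 27 k_cl27 g28
  have g26 := step 26 k_cl26 g27
  have g25 := step 25 k_cl25 g26
  have g24 := step 24 k_cl24 g25
  have g23 := step 23 k_cl23 g24
  have g22 := step 22 k_cl22 g23
  have g21 := step 21 k_cl21 g22
  have g20 := step 20 k_cl20 g21
  have g19 := step 19 k_cl19 g20
  have g18 := step 18 k_cl18 g19
  have g17 := step 17 k_cl17 g18
  have g16 := step 16 k_cl16 g17
  have g15 := step 15 k_cl15 g16
  have g14 := step 14 k_cl14 g15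
  have g13 := step 13 k_cl13 g14
  have g12 := step 12 k_cl12 g13
  have g11 := step 11 k_cl11 g12
  have g10 := step 10 k_cl10 g11
  have g9 := step 9 k_cl9 g10
  have g8 := step 8 k_cl8 g9
  have g7 := step 7 k_cl7 g8
  have g6 := step 6 k_cl6 g7
  have g5 := step 5 k_cl5 g6
  have g4 := step 4 k_cl4 g5
  have g3 := step 3 k_cl3 g4
  have g2 := step 2 k_cl2 g3
  have g1 := step 1 k_cl1 g2
  have g0 := step 0 k_cl0 g1
  have h0 := g0
  rw [List.drop_zero] at h0
  exact h0

theorem rows3_length : rows3.length = 416 := by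
  unfold rows3
  rw [List.length_append, List.length_drop, List.length_take, rows_length]
  norm_num

/-- position of the vertex `i` in `rows3`. -/
def pos (i : Fin 416) : Fin rows3.length :=
  ⟨(i.val + 96) % 416, by rw [rows3_length]; exact Nat.mod_lt _ (by norm_num)⟩

theorem pos_inj : Function.Injective pos := by
  intro i j h
  have h1 : (i.val + 96) % 416 = (j.val + 96) % 416 := congrArg Fin.val h
  apply Fin.ext
  have hi := i.2
  have hj := j.2
  omega

theorem getElem_rows (i : ℕ) (hi : i < rows.length) : rows[i] = (i, Q i) := by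
  have hi' : i < 416 := by rw [rows_length] at hi; exact hi
  have h := getD_eq i hi'
  rw [List.getD_eq_getElem _ _ hi] at h
  exact h

theorem rows3_get (i : Fin 416) : rows3.get (pos i) = (i.val, Q i.val) := by
  have hi := i.2
  rw [List.get_eq_getElem]
  simp only [pos]
  unfold rows3
  by_cases h : i.val < 320
  · have h1 : (i.val + 96) % 416 = i.val + 96 := Nat.mod_eq_of_lt (by omega)
    simp only [h1]
    rw [List.getElem_append_right (by rw [List.length_drop, rows_length]; omega)]
    rw [List.getElem_take]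
    have h2 : i.val + 96 - (List.drop 320 rows).length = i.val := by
      rw [List.length_drop, rows_length]; omega
    rw [getElem_rows]
    rw [h2]
  · have h1 : (i.val + 96) % 416 = i.val - 320 := by omega
    simp only [h1]
    rw [List.getElem_append_left (by rw [List.length_drop, rows_length]; omega)]
    rw [List.getElem_drop, getElem_rows]
    have h2 : 320 + (i.val - 320) = i.val := by omega
    rw [h2]

/-- Five is the largest size of a set of pairwise adjacent vertices. -/
theorem clique_le (K : Finset (Fin 416))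
    (hK : ∀ i ∈ K, ∀ j ∈ K, i ≠ j → Adj (i.val, Q i.val) (j.val, Q j.val)) : K.card ≤ 5 := by
  classical
  have h := card_le_of_noClique 5 rows3 noClique6_rows3 (K.image pos) ?_
  · rwa [Finset.card_image_of_injective _ pos_inj] at h
  · intro a ha b hb hab
    rw [Finset.mem_image] at ha hb
    obtain ⟨i, hi, rfl⟩ := ha
    obtain ⟨j, hj, rfl⟩ := hb
    rw [rows3_get, rows3_get]
    exact hK i hi j hj (fun h => hab (by rw [h]))

theorem adj_of_eq_seven (i j : ℕ) (h : q i j = 7) : Adj (i, Q i) (j, Q j) := by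
  unfold Adj
  have h1 : (Q i >>> (18 * j)) % 2 ^ 18 = 7 := h
  intro h2
  have h3 : (Q i >>> (18 * j)) &&& 4 = 0 := h2
  have h4 : Nat.testBit ((Q i >>> (18 * j)) % 2 ^ 18) 2 = true := by
    rw [h1]
    decide
  rw [Nat.testBit_mod_two_pow] at h4
  have h5 : Nat.testBit ((Q i >>> (18 * j)) &&& 4) 2 = true := by
    rw [Nat.testBit_and]
    simp only [Bool.and_eq_true, decide_eq_true_eq] at h4
    rw [h4.2]
    decide
  rw [h3] at h5
  simp at h5

theorem blk_lt (i : ℕ) (h : i < 320) : blk i = 0 := by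
  have hb : Nat.ble 320 i = false := by
    cases hb : Nat.ble 320 i
    · rfl
    · exact absurd (Nat.le_of_ble_eq_true hb) (by omega)
  unfold blk
  rw [hb]

theorem blk_ge (i : ℕ) (h : 320 ≤ i) : blk i = i / 32 - 9 := by
  have hb : Nat.ble 320 i = true := Nat.ble_eq_true_of_le h
  unfold blk
  rw [hb]
  rfl

theorem blk_cases (i : Fin 416) :
    (i.val < 320 ∧ blk i.val = 0) ∨ (320 ≤ i.val ∧ (blk i.val = 1 ∨ blk i.val = 2 ∨
      blk i.val = 3)) := by
  have hi := i.2
  rcases Nat.lt_or_ge i.val 320 with h | h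
  · exact Or.inl ⟨h, blk_lt _ h⟩
  · right
    refine ⟨h, ?_⟩
    rw [blk_ge _ h]
    omega

theorem okD_eval (i j : Fin 416) : okD i.val j.val (q i.val j.val) = true := by
  have h := (allL_iff _ _).mp ((allL_iff _ _).mp k_pts3 _ (mem_rows i.val i.2)) _
    (mem_rows j.val j.2)
  exact h

/-- `15` for the first 320 vertices, `13` for the others. -/
theorem P_diag (i : Fin 416) :
    (blk i.val = 0 → P i i = 15) ∧ (blk i.val ≠ 0 → P i i = 13) := by
  have h := okD_eval i i
  have hb : Nat.beq i.val i.val = true := Nat.beq_refl _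
  unfold okD at h
  rw [hb] at h
  have h1 : q i.val i.val = 18 - 2 * (i.val / 320) := Nat.eq_of_beq_eq_true h
  have hi := i.2
  rcases blk_cases i with ⟨h2, h3⟩ | ⟨h2, h3⟩
  · refine ⟨fun _ => ?_, fun h4 => absurd h3 h4⟩
    rw [Nat.div_eq_of_lt h2] at h1
    simp only [P, h1]
    norm_num
  · refine ⟨fun h4 => by omega, fun _ => ?_⟩
    have h5 : i.val / 320 = 1 := by omega
    rw [h5] at h1
    simp only [P, h1]
    norm_num

theorem rec_or (b : Bool) (x y : Bool) :
    (b.rec (motive := fun _ => Bool) x y) = true → (b = false ∧ x = true) ∨ (b = true ∧ y = true) := by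
  cases b
  · intro h; exact Or.inl ⟨rfl, h⟩
  · intro h; exact Or.inr ⟨rfl, h⟩

theorem beq_false {a b : ℕ} (h : Nat.beq a b = false) : a ≠ b := by
  rintro rfl
  rw [Nat.beq_refl] at h
  exact absurd h (by simp)

/-- the entries off the diagonal. -/
theorem P_off (i j : Fin 416) (hij : i ≠ j) :
    ((blk i.val = 0 ∨ blk j.val = 0) ∧
      (P i j = -1 ∨ (P i j = 3 ∧ Adj (i.val, Q i.val) (j.val, Q j.val)))) ∨
    (blk i.val ≠ 0 ∧ blk i.val = blk j.val ∧
      (P i j = -3 ∨ (P i j = 1 ∧ Adj (i.val, Q i.val) (j.val, Q j.val)))) ∨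
    (blk i.val ≠ 0 ∧ blk j.val ≠ 0 ∧ blk i.val ≠ blk j.val ∧
      (P i j = 0 ∨ (P i j = 4 ∧ Adj (i.val, Q i.val) (j.val, Q j.val)))) := by
  have h := okD_eval i j
  unfold okD at h
  rcases rec_or _ _ _ h with ⟨_, h⟩ | ⟨h0, _⟩
  swap
  · exact absurd (Fin.ext (Nat.eq_of_beq_eq_true h0)) hij
  rcases rec_or _ _ _ h with ⟨h1, h⟩ | ⟨h1, h⟩
  · have h1' : blk i.val * blk j.val ≠ 0 := beq_false h1
    have hi : blk i.val ≠ 0 := fun e => h1' (by rw [e, zero_mul])
    have hj : blk j.val ≠ 0 := fun e => h1' (by rw [e, mul_zero])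
    rcases rec_or _ _ _ h with ⟨h2, h⟩ | ⟨h2, h⟩
    · right; right
      refine ⟨hi, hj, beq_false h2, ?_⟩
      rcases rec_or _ _ _ h with ⟨_, h⟩ | ⟨h3, _⟩
      · right
        have h4 := Nat.eq_of_beq_eq_true h
        refine ⟨by simp only [P, h4]; norm_num, adj_of_eq_seven _ _ h4⟩
      · left
        have h4 := Nat.eq_of_beq_eq_true h3
        simp only [P, h4]; norm_num
    · right; left
      refine ⟨hi, Nat.eq_of_beq_eq_true h2, ?_⟩
      rcases rec_or _ _ _ h with ⟨_, h⟩ | ⟨h3, _⟩
      · right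
        have h4 := Nat.eq_of_beq_eq_true h
        refine ⟨by simp only [P, h4]; norm_num, adj_of_eq_four _ _ h4⟩
      · left
        have h4 := Nat.eq_of_beq_eq_true h3
        simp only [P, h4]; norm_num
  · left
    have h1' : blk i.val * blk j.val = 0 := Nat.eq_of_beq_eq_true h1
    refine ⟨Nat.mul_eq_zero.mp h1', ?_⟩
    rcases rec_or _ _ _ h with ⟨_, h⟩ | ⟨h3, _⟩
    · right
      have h4 := Nat.eq_of_beq_eq_true h
      refine ⟨by simp only [P, h4]; norm_num, adj_of_eq_six _ _ h4⟩
    · left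
      have h4 := Nat.eq_of_beq_eq_true h3
      simp only [P, h4]; norm_num

/-- A configuration indexed by a set of vertices gives `SphGood`. -/
theorem sphGood_of_conf {d : ℕ} (S : Finset (Fin 416)) (w : Fin 416 → EuclideanSpace ℝ (Fin d))
    (c : EuclideanSpace ℝ (Fin d)) (hc : ∀ i ∈ S, dist (w i) c ^ 2 = 1440)
    (hw : ∀ i ∈ S, ∀ j ∈ S, i ≠ j → dist (w i) (w j) ^ 2 = 3072 ∨
      (dist (w i) (w j) ^ 2 < 3072 ∧ Adj (i.val, Q i.val) (j.val, Q j.val)))
    (k : ℕ) (hk : 5 * (k - 1) < S.card) : SphGood d k := by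
  classical
  have hDsq : Real.sqrt 3072 ^ 2 = 3072 := Real.sq_sqrt (by norm_num)
  have hD : (0 : ℝ) < Real.sqrt 3072 := Real.sqrt_pos.mpr (by norm_num)
  have hρ : Real.sqrt 1440 ^ 2 = 1440 := Real.sq_sqrt (by norm_num)
  refine ⟨w '' S, Real.sqrt 3072, Real.sqrt 1440, c, S.finite_toSet.image _, hD, ?_,
    ?_, ?_, ?_⟩
  · rw [hDsq, hρ]; norm_num
  · rintro _ ⟨i, hi, rfl⟩
    rw [hc i hi, hρ]
  · rintro _ ⟨i, hi, rfl⟩ _ ⟨j, hj, rfl⟩
    by_cases hij : i = j
    · rw [hij, dist_self]; exact hD.le
    · apply Real.le_sqrt_of_sq_le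
      rcases hw i hi j hj hij with h | h
      · exact h.le
      · exact h.1.le
  · intro m F hF hsub
    have hmem : ∀ i : S, ∃ e, w i.1 ∈ F e := by
      intro i
      exact Set.mem_iUnion.mp (hsub ⟨i.1, i.2, rfl⟩)
    choose e he using hmem
    have h1 : (Finset.univ : Finset S).card ≤
        5 * (Finset.univ : Finset (Fin m)).card := by
      apply Finset.card_le_mul_card_image_of_maps_to (f := e) (fun i _ => Finset.mem_univ _)
      intro b _
      have h2 := clique_le ((Finset.univ.filter (fun i => e i = b)).map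
        (Function.Embedding.subtype _)) ?_
      · rwa [Finset.card_map] at h2
      intro i hi j hj hij
      rw [Finset.mem_map] at hi hj
      obtain ⟨i', hi', rfl⟩ := hi
      obtain ⟨j', hj', rfl⟩ := hj
      simp only [Finset.mem_filter, Finset.mem_univ, true_and] at hi' hj'
      have h2 := hF b _ (hi' ▸ he i') _ (hj' ▸ he j')
      rcases hw i'.1 i'.2 j'.1 j'.2 hij with h | h
      · exfalso
        have h3 : dist (w i'.1) (w j'.1) ^ 2 < Real.sqrt 3072 ^ 2 :=
          pow_lt_pow_left₀ h2 dist_nonneg (by norm_num)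
        rw [hDsq, h] at h3
        exact lt_irrefl _ h3
      · exact h.2
    rw [Finset.card_univ, Finset.card_univ, Fintype.card_fin, Fintype.card_coe] at h1
    omega

/-- first extra coordinate. -/
noncomputable def al (b : ℕ) : ℝ :=
  if b = 0 then 0 else if b = 3 then Real.sqrt 192 else - Real.sqrt 192 / 2

/-- second extra coordinate. -/
noncomputable def be (b : ℕ) : ℝ := if b = 1 then 12 else if b = 2 then -12 else 0

/-- the 416 points in dimension 65. -/
noncomputable def w65 (i : Fin 416) : EuclideanSpace ℝ (Fin (63 + 1 + 1)) :=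
  snocE (snocE (z i) (al (blk i.val))) (be (blk i.val))

theorem dist_w65 (i j : Fin 416) : dist (w65 i) (w65 j) ^ 2 =
    96 * (P i i + P j j - 2 * P i j) + (al (blk i.val) - al (blk j.val)) ^ 2 +
      (be (blk i.val) - be (blk j.val)) ^ 2 := by
  unfold w65
  rw [dist_snocE_sq, dist_snocE_sq, dist_z_sq]

theorem w65_center (i : Fin 416) : dist (w65 i) (snocE (snocE 0 0) 0) ^ 2 = 1440 := by
  unfold w65
  rw [dist_snocE_sq, dist_snocE_sq, dist_z_zero_sq]
  have h := P_diag i
  have h192 : Real.sqrt 192 ^ 2 = 192 := sqrt192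
  rcases blk_cases i with ⟨_, h3⟩ | ⟨_, h3 | h3 | h3⟩
  · rw [h.1 h3, h3]
    simp only [al, be]
    norm_num
  · rw [h.2 (by omega), h3]
    simp only [al, be]
    norm_num
    linarith [h192, (by ring : (-Real.sqrt 192 / 2) ^ 2 = Real.sqrt 192 ^ 2 / 4)]
  · rw [h.2 (by omega), h3]
    simp only [al, be]
    norm_num
    linarith [h192, (by ring : (-Real.sqrt 192 / 2) ^ 2 = Real.sqrt 192 ^ 2 / 4)]
  · rw [h.2 (by omega), h3]
    simp only [al, be]
    norm_num

theorem extra_sq (a b : ℕ) (ha : a = 0 ∨ a = 1 ∨ a = 2 ∨ a = 3)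
    (hb : b = 0 ∨ b = 1 ∨ b = 2 ∨ b = 3) :
    (al a - al b) ^ 2 + (be a - be b) ^ 2 =
      if a = b then 0 else if a = 0 ∨ b = 0 then 192 else 576 := by
  have h192 : Real.sqrt 192 ^ 2 = 192 := sqrt192
  rcases ha with rfl | rfl | rfl | rfl <;> rcases hb with rfl | rfl | rfl | rfl <;>
    simp only [al, be] <;> norm_num <;> nlinarith [h192]

theorem dist_w65' (i j : Fin 416) (hij : i ≠ j) :
    dist (w65 i) (w65 j) ^ 2 = 3072 ∨
    (dist (w65 i) (w65 j) ^ 2 < 3072 ∧ Adj (i.val, Q i.val) (j.val, Q j.val)) := by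
  have e : dist (w65 i) (w65 j) ^ 2 =
      96 * (P i i + P j j - 2 * P i j) + ((al (blk i.val) - al (blk j.val)) ^ 2 +
      (be (blk i.val) - be (blk j.val)) ^ 2) := by
    rw [dist_w65]; ring
  have hbi : blk i.val = 0 ∨ blk i.val = 1 ∨ blk i.val = 2 ∨ blk i.val = 3 := by
    rcases blk_cases i with ⟨_, h3⟩ | ⟨_, h3⟩ <;> omega
  have hbj : blk j.val = 0 ∨ blk j.val = 1 ∨ blk j.val = 2 ∨ blk j.val = 3 := by
    rcases blk_cases j with ⟨_, h3⟩ | ⟨_, h3⟩ <;> omega
  rw [extra_sq _ _ hbi hbj] at e
  have di := P_diag i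
  have dj := P_diag j
  rw [e]
  rcases P_off i j hij with ⟨h0, h1⟩ | ⟨h0, h2, h1⟩ | ⟨h0, h2, h3, h1⟩
  · by_cases hi : blk i.val = 0
    · by_cases hj : blk j.val = 0
      · rw [if_pos (by rw [hi, hj]), di.1 hi, dj.1 hj]
        rcases h1 with h1 | ⟨h1, h4⟩
        · left; rw [h1]; norm_num
        · right; refine ⟨by rw [h1]; norm_num, h4⟩
      · rw [if_neg (by rw [hi]; exact fun h => hj h.symm), if_pos (Or.inl hi), di.1 hi, dj.2 hj]
        rcases h1 with h1 | ⟨h1, h4⟩
        · left; rw [h1]; norm_num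
        · right; refine ⟨by rw [h1]; norm_num, h4⟩
    · have hj : blk j.val = 0 := h0.resolve_left hi
      rw [if_neg (by rw [hj]; exact hi), if_pos (Or.inr hj), di.2 hi, dj.1 hj]
      rcases h1 with h1 | ⟨h1, h4⟩
      · left; rw [h1]; norm_num
      · right; refine ⟨by rw [h1]; norm_num, h4⟩
  · rw [if_pos h2, di.2 h0, dj.2 (by rw [← h2]; exact h0)]
    rcases h1 with h1 | ⟨h1, h4⟩
    · left; rw [h1]; norm_num
    · right; refine ⟨by rw [h1]; norm_num, h4⟩
  · rw [if_neg h3, if_neg (by tauto), di.2 h0, dj.2 h2]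
    rcases h1 with h1 | ⟨h1, h4⟩
    · left; rw [h1]; norm_num
    · right; refine ⟨by rw [h1]; norm_num, h4⟩

theorem sphGood65 : SphGood 65 84 := by
  apply sphGood_of_conf Finset.univ w65 (snocE (snocE 0 0) 0) (fun i _ => w65_center i)
    (fun i _ j _ hij => dist_w65' i j hij)
  rw [Finset.card_univ, Fintype.card_fin]
  norm_num

/-- the points in dimension 64. -/
noncomputable def v64 (i : Fin 416) : EuclideanSpace ℝ (Fin (63 + 1)) :=
  snocE (z i) (al (blk i.val))

/-- the vertices used in dimension 64. -/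
def S64 : Finset (Fin 416) := Finset.univ.filter (fun i => i.val < 320 ∨ 384 ≤ i.val)

theorem blk_S64 (i : Fin 416) (hi : i ∈ S64) : be (blk i.val) = 0 := by
  simp only [S64, Finset.mem_filter, Finset.mem_univ, true_and] at hi
  rcases hi with h | h
  · rw [blk_lt _ h]
    simp [be]
  · have hi := i.2
    have h1 : blk i.val = 3 := by
      rw [blk_ge _ (by omega)]
      omega
    rw [h1]
    simp [be]

theorem sphGood64' : SphGood 64 71 := by
  apply sphGood_of_conf S64 v64 (snocE 0 0)
  · intro i hi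
    have h := w65_center i
    unfold w65 at h
    rw [dist_snocE_sq, blk_S64 i hi] at h
    unfold v64
    rw [← h]; ring
  · intro i hi j hj hij
    have h := dist_w65' i j hij
    have e : dist (w65 i) (w65 j) ^ 2 = dist (v64 i) (v64 j) ^ 2 := by
      unfold w65
      rw [dist_snocE_sq, blk_S64 i hi, blk_S64 j hj]
      unfold v64
      ring
    rw [e] at h
    exact h
  · have : S64.card = 352 := by decide +kernel
    rw [this]
    norm_num

end Vale.Agent.P052.H515
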