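import Vale.Agent.P052.Defs

/-!
Finite sets on spheres of radius smaller than the diameter divided by the square root of two.
-/

namespace Vale.Agent.P052.H515

/-- `OnSmallSphere Y`: the set `Y` is finite and lies on a sphere whose radius `ρ` satisfies
`2 ρ ^ 2 < (diam Y) ^ 2`. -/
def OnSmallSphere {d : ℕ} (Y : Set (EuclideanSpace ℝ (Fin d))) : Prop :=
  Y.Finite ∧ ∃ (c : EuclideanSpace ℝ (Fin d)) (ρ : ℝ),
    (∀ y ∈ Y, dist y c = ρ) ∧ 2 * ρ ^ 2 < Metric.diam Y ^ 2

end Vale.Agent.P052.H515
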