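import Vale.Agent.P052.H515.Defs
import Vale.Agent.P052.H515.Conf

/-!
Borsuk's conjecture fails by a constant factor in every dimension from 65 on.
-/

namespace Vale.Agent.P052.H515

open Vale.Agent.P052 Metric Module

theorem OnSmallSphere.diam_pos {d : ℕ} {Y : Set (EuclideanSpace ℝ (Fin d))}
    (h : OnSmallSphere Y) : 0 < Metric.diam Y := by
  obtain ⟨-, c, ρ, -, h2⟩ := h
  rcases (Metric.diam_nonneg (s := Y)).eq_or_lt with h0 | h0
  · rw [← h0] at h2
    nlinarith [sq_nonneg ρ]
  · exact h0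

theorem OnSmallSphere.sphGood {d : ℕ} {Y : Set (EuclideanSpace ℝ (Fin d))}
    (h : OnSmallSphere Y) : SphGood d (borsukNumber Y) := by
  have hpos := h.diam_pos
  obtain ⟨hf, c, ρ, hc, h2⟩ := h
  refine ⟨Y, Metric.diam Y, ρ, c, hf, hpos, h2, fun y hy => by rw [hc y hy],
    fun y hy z hz => Metric.dist_le_diam_of_mem hf.isBounded hy hz, ?_⟩
  intro m P hP hsub
  apply Nat.sInf_le
  refine ⟨fun i => P i ∩ Y, ?_, ?_⟩
  · rw [← Set.iUnion_inter]
    exact Set.inter_eq_right.mpr hsub
  · intro i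
    show Metric.diam (P i ∩ Y) < Metric.diam Y
    have hfi : (P i ∩ Y).Finite := hf.inter_of_right _
    rcases (P i ∩ Y).eq_empty_or_nonempty with h0 | h0
    · rw [h0, Metric.diam_empty]; exact hpos
    · obtain ⟨p, hp, hmax⟩ := Set.exists_max_image ((P i ∩ Y) ×ˢ (P i ∩ Y))
        (fun p => dist p.1 p.2) (hfi.prod hfi) (h0.prod h0)
      have h1 : Metric.diam (P i ∩ Y) ≤ dist p.1 p.2 := by
        apply Metric.diam_le_of_forall_dist_le dist_nonneg
        intro x hx y hy
        exact hmax (x, y) ⟨hx, hy⟩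
      exact lt_of_le_of_lt h1 (hP i _ hp.1.1 _ hp.2.1)

theorem exists_small {d k : ℕ} (h : SphGood d k) (hk : 2 ≤ k) :
    ∃ Y : Set (EuclideanSpace ℝ (Fin d)), OnSmallSphere Y ∧ k ≤ borsukNumber Y := by
  classical
  obtain ⟨Y, D, ρ, c, hfin, hD, hρ, hc, hle, hcov⟩ := h
  have hbd := hfin.isBounded
  have hex : ∃ y ∈ Y, ∃ z ∈ Y, dist y z = D := by
    by_contra hcon
    push Not at hcon
    have h1 := hcov 1 (fun _ => Y) (fun _ y hy z hz =>
      lt_of_le_of_ne (hle y hy z hz) (hcon y hy z hz))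
      (fun y hy => Set.mem_iUnion.mpr ⟨0, hy⟩)
    omega
  have hdiam : Metric.diam Y = D := by
    apply le_antisymm (Metric.diam_le_of_forall_dist_le hD.le hle)
    obtain ⟨y, hy, z, hz, hyz⟩ := hex
    rw [← hyz]
    exact Metric.dist_le_diam_of_mem hbd hy hz
  refine ⟨Y, ⟨hfin, c, |ρ|, ?_, ?_⟩, ?_⟩
  · intro y hy
    have h1 := hc y hy
    rw [← sq_abs ρ] at h1
    exact (pow_left_inj₀ dist_nonneg (abs_nonneg _) (by norm_num)).mp h1
  · rw [sq_abs, hdiam]; exact hρ
  · have key : ∀ m, IsSmallerCover Y m → k ≤ m := by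
      rintro m ⟨P, hP, hdP⟩
      apply hcov m P
      · intro i y hy z hz
        have hsub : P i ⊆ Y := by
          rw [← hP]
          exact Set.subset_iUnion P i
        exact lt_of_le_of_lt (Metric.dist_le_diam_of_mem (hbd.subset hsub) hy hz)
          (lt_of_lt_of_le (hdP i) hdiam.le)
      · rw [hP]
    have hne : {m : ℕ | IsSmallerCover Y m}.Nonempty := by
      obtain ⟨n, f, hf⟩ : ∃ (n : ℕ) (f : Fin n → EuclideanSpace ℝ (Fin d)),
          Set.range f = Y := by
        obtain ⟨n, f, hf⟩ := hfin.fin_param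
        exact ⟨n, f, hf.2⟩
      refine ⟨n, fun i => {f i}, ?_, ?_⟩
      · rw [← hf]
        ext w
        simp only [Set.iUnion_singleton_eq_range, Set.mem_range]
      · intro i
        rw [Metric.diam_singleton, hdiam]
        exact hD
    exact key _ (Nat.sInf_mem hne)

/-- **Superadditivity**: the joins. -/
theorem superadditive {d₁ d₂ : ℕ} (Y₁ : Set (EuclideanSpace ℝ (Fin d₁)))
    (Y₂ : Set (EuclideanSpace ℝ (Fin d₂))) (h₁ : OnSmallSphere Y₁) (h₂ : OnSmallSphere Y₂) :
    ∃ Y : Set (EuclideanSpace ℝ (Fin (d₁ + d₂ + 1))), OnSmallSphere Y ∧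
      borsukNumber Y₁ + borsukNumber Y₂ ≤ borsukNumber Y := by
  have one : ∀ {d : ℕ} (Y : Set (EuclideanSpace ℝ (Fin d))), OnSmallSphere Y →
      1 ≤ borsukNumber Y := by
    intro d Y h
    by_contra hcon
    have h0 : borsukNumber Y = 0 := by omega
    have hpos := h.diam_pos
    obtain ⟨Z, D, ρ, c, hfin, hD, hρ, hc, hle, hcov⟩ := h.sphGood
    have hne : {k : ℕ | IsSmallerCover Y k}.Nonempty := by
      obtain ⟨n, f, hf⟩ : ∃ (n : ℕ) (f : Fin n → EuclideanSpace ℝ (Fin d)),
          Set.range f = Y := by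
        obtain ⟨n, f, hf⟩ := h.1.fin_param
        exact ⟨n, f, hf.2⟩
      refine ⟨n, fun i => {f i}, ?_, ?_⟩
      · rw [← hf]
        ext w
        simp only [Set.iUnion_singleton_eq_range, Set.mem_range]
      · intro i
        rw [Metric.diam_singleton]
        exact hpos
    have h1 : IsSmallerCover Y 0 := by
      have := Nat.sInf_mem hne
      rw [show sInf {k : ℕ | IsSmallerCover Y k} = 0 from h0] at this
      exact this
    obtain ⟨P, hP, -⟩ := h1
    have h2 : Y = ∅ := by
      rw [← hP]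
      simp
    rw [h2, Metric.diam_empty] at hpos
    exact lt_irrefl _ hpos
  apply exists_small (join h₁.sphGood h₂.sphGood)
  have := one Y₁ h₁
  have := one Y₂ h₂
  omega

theorem combo (a b : ℕ) (hab : 1 ≤ a + b) :
    ∃ d, d + 1 = 66 * a + 65 * b ∧ SphGood d (84 * a + 71 * b) := by
  induction a with
  | zero =>
    induction b with
    | zero => omega
    | succ b ih =>
      rcases Nat.eq_zero_or_pos b with rfl | hb
      · exact ⟨64, by norm_num, by simpa using sphGood64'⟩
      · obtain ⟨d, hd, hS⟩ := ih (by omega)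
        refine ⟨d + 64 + 1, by omega, ?_⟩
        have := join hS sphGood64'
        have e : 84 * 0 + 71 * (b + 1) = 84 * 0 + 71 * b + 71 := by ring
        rw [e]; exact this
  | succ a ih =>
    rcases Nat.eq_zero_or_pos (a + b) with h0 | h0
    · have ha : a = 0 := by omega
      have hb : b = 0 := by omega
      subst ha hb
      exact ⟨65, by norm_num, by simpa using sphGood65⟩
    · obtain ⟨d, hd, hS⟩ := ih (by omega)
      refine ⟨d + 65 + 1, by omega, ?_⟩
      have := join hS sphGood65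
      have e : 84 * (a + 1) + 71 * b = 84 * a + 71 * b + 84 := by ring
      rw [e]; exact this

theorem combo' (a b c d : ℕ) (hab : 1 ≤ a + b) (hd : d + 1 = 66 * a + 65 * b + c) :
    SphGood d (84 * a + 71 * b + c) := by
  obtain ⟨e, he, hS⟩ := combo a b hab
  obtain rfl : d = e + c := by omega
  exact hS.add c

theorem main2 (a b c d : ℕ) (hab : 1 ≤ a + b) (hd : d + 1 = 66 * a + 65 * b + c) :
    ∃ Y : Set (EuclideanSpace ℝ (Fin d)), OnSmallSphere Y ∧
      84 * a + 71 * b + c ≤ borsukNumber Y :=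
  exists_small (combo' a b c d hab hd) (by omega)

theorem main3 (d : ℕ) (hd : 65 ≤ d) :
    ∃ Y : Set (EuclideanSpace ℝ (Fin d)), OnSmallSphere Y ∧
      (113 / 100 : ℝ) * (d + 1) ≤ borsukNumber Y ∧
      (14 / 11 : ℝ) * (d + 1) - 18 ≤ borsukNumber Y := by
  obtain ⟨Y, h1, h2⟩ := main2 ((d + 1) / 66) 0 ((d + 1) % 66) d (by omega) (by omega)
  refine ⟨Y, h1, ?_, ?_⟩
  · have h3 : 113 * (d + 1) ≤ 100 * borsukNumber Y := by omega
    have h4 : (113 : ℝ) * (d + 1) ≤ 100 * borsukNumber Y := by exact_mod_cast h3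
    linarith
  · have h3 : 14 * (d + 1) ≤ 11 * borsukNumber Y + 198 := by omega
    have h4 : (14 : ℝ) * (d + 1) ≤ 11 * borsukNumber Y + 198 := by exact_mod_cast h3
    linarith

end Vale.Agent.P052.H515
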