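import Vale.Agent.P052.H515.Rows

/-! Kernel checks of the clique number, part 1. -/

set_option linter.unusedTactic false

namespace Vale.Agent.P052.H515

open Vale.Agent.P052

set_option maxRecDepth 100000 in
theorem k_cl0 : chunk 5 1 (rows3.drop 0) = true := by
  (clear * -; decide +kernel)

set_option maxRecDepth 100000 in
theorem k_cl1 : chunk 5 1 (rows3.drop 1) = true := by
  (clear * -; decide +kernel)

set_option maxRecDepth 100000 in
theorem k_cl2 : chunk 5 1 (rows3.drop 2) = true := by
  (clear * -; decide +kernel)

set_option maxRecDepth 100000 in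
theorem k_cl3 : chunk 5 1 (rows3.drop 3) = true := by
  (clear * -; decide +kernel)

set_option maxRecDepth 100000 in
theorem k_cl4 : chunk 5 1 (rows3.drop 4) = true := by
  (clear * -; decide +kernel)

set_option maxRecDepth 100000 in
theorem k_cl5 : chunk 5 1 (rows3.drop 5) = true := by
  (clear * -; decide +kernel)

set_option maxRecDepth 100000 in
theorem k_cl6 : chunk 5 1 (rows3.drop 6) = true := by
  (clear * -; decide +kernel)

set_option maxRecDepth 100000 in
theorem k_cl7 : chunk 5 1 (rows3.drop 7) = true := by
  (clear * -; decide +kernel)

set_option maxRecDepth 100000 in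
theorem k_cl8 : chunk 5 1 (rows3.drop 8) = true := by
  (clear * -; decide +kernel)

set_option maxRecDepth 100000 in
theorem k_cl9 : chunk 5 1 (rows3.drop 9) = true := by
  (clear * -; decide +kernel)

set_option maxRecDepth 100000 in
theorem k_cl10 : chunk 5 1 (rows3.drop 10) = true := by
  (clear * -; decide +kernel)

set_option maxRecDepth 100000 in
theorem k_cl11 : chunk 5 1 (rows3.drop 11) = true := by
  (clear * -; decide +kernel)

set_option maxRecDepth 100000 in
theorem k_cl12 : chunk 5 1 (rows3.drop 12) = true := by
  (clear * -; decide +kernel)

set_option maxRecDepth 100000 in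
theorem k_cl13 : chunk 5 1 (rows3.drop 13) = true := by
  (clear * -; decide +kernel)

set_option maxRecDepth 100000 in
theorem k_cl14 : chunk 5 1 (rows3.drop 14) = true := by
  (clear * -; decide +kernel)

set_option maxRecDepth 100000 in
theorem k_cl15 : chunk 5 1 (rows3.drop 15) = true := by
  (clear * -; decide +kernel)

set_option maxRecDepth 100000 in
theorem k_cl16 : chunk 5 1 (rows3.drop 16) = true := by
  (clear * -; decide +kernel)

set_option maxRecDepth 100000 in
theorem k_cl17 : chunk 5 1 (rows3.drop 17) = true := by
  (clear * -; decide +kernel)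

set_option maxRecDepth 100000 in
theorem k_cl18 : chunk 5 1 (rows3.drop 18) = true := by
  (clear * -; decide +kernel)

set_option maxRecDepth 100000 in
theorem k_cl19 : chunk 5 1 (rows3.drop 19) = true := by
  (clear * -; decide +kernel)

set_option maxRecDepth 100000 in
theorem k_cl20 : chunk 5 1 (rows3.drop 20) = true := by
  (clear * -; decide +kernel)

set_option maxRecDepth 100000 in
theorem k_cl21 : chunk 5 1 (rows3.drop 21) = true := by
  (clear * -; decide +kernel)

set_option maxRecDepth 100000 in
theorem k_cl22 : chunk 5 1 (rows3.drop 22) = true := by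
  (clear * -; decide +kernel)

set_option maxRecDepth 100000 in
theorem k_cl23 : chunk 5 1 (rows3.drop 23) = true := by
  (clear * -; decide +kernel)

end Vale.Agent.P052.H515
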