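import Vale.Agent.P052.Bdl.B1

/-! The whole graph on 416 vertices: the vertices of the last three blocks come first. -/

namespace Vale.Agent.P052.H515

open Vale.Agent.P052

/-- the 416 vertices, the last 96 first. -/
def rows3 : List (ℕ × ℕ) := rows.drop 320 ++ rows.take 320

end Vale.Agent.P052.H515
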